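import Vale.Agent.P216.H929V.HW
import Vale.Agent.P216.V893.Qis
import Vale.Agent.P216.V893.PM
import Vale.Agent.P216.V893.Sqr

/-!
# P216-V, C2Q: the free paths and the constant paths have the same hybrid cohomology

`qiso_of_lists`: a morphism of hybrid dgas which is induced by a map of the points of the lists is a
quasi-isomorphism if it is one on list cochains. `qiso_cst`: the case of the constant paths.
-/

set_option linter.unusedSectionVars false

open Set Filter Topology BoundedContinuousFunction

namespace Vale.Agent.P216.V845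

open V1 V609 H285V H929V V893 PS
open Vale.Agent.P216.Sl (CocL ExL)

noncomputable section

variable {N N' Y Y' : Type} [PseudoMetricSpace N] [PseudoMetricSpace N'] [PseudoMetricSpace Y]
  [PseudoMetricSpace Y']

/-- **from lists to germs** -/
theorem qiso_of_lists {r : Y → N} {A : Set Y} {r' : Y' → N'} {A' : Set Y'}
    (hr : ∀ x x', dist (r x) (r x') ≤ dist x x') (hr' : ∀ x x', dist (r' x) (r' x') ≤ dist x x')
    (φ : NDga.Hom (hD (id : N → N) r A univ) (hD (id : N' → N') r' A' univ)) {ψ : Y' → Y}
    (hφ : ∀ (n : ℕ) (f : List Y → ℝ), φ.f (WD (id : N → N) r A univ n f) =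
      WD (id : N' → N') r' A' univ n (fun l => f (l.map ψ)))
    (hinj : ∀ (n : ℕ) (f : List Y → ℝ), CocL A n f → ExL A' n (fun l => f (l.map ψ)) → ExL A n f)
    (hsurj : ∀ (n : ℕ) (f' : List Y' → ℝ), CocL A' n f' → ∃ f : List Y → ℝ, CocL A n f ∧
      ExL A' n (fun l => f' l - f (l.map ψ))) : Qiso φ where
  inj := by
    intro n a ha h
    obtain ⟨f, hf, h1⟩ := (wD (A := A) hr).surj n a ha
    have h2 : WD (id : N' → N') r' A' univ n (fun l => f (l.map ψ)) ∈
        (hD (id : N' → N') r' A' univ).B n := by
      have e : WD (id : N' → N') r' A' univ n (fun l => f (l.map ψ)) =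
          φ.f a - φ.f (a - WD (id : N → N) r A univ n f) := by
        rw [map_sub, hφ, sub_sub_cancel]
      rw [e]
      exact Submodule.sub_mem _ h (φ.map_B h1)
    have h3 : WD (id : N → N) r A univ n f ∈ (hD (id : N → N) r A univ).B n :=
      WD_exact (id : N → N) r A univ (hinj n f hf (WD_inj hr' h2))
    have e : a = (a - WD (id : N → N) r A univ n f) + WD (id : N → N) r A univ n f := by abel
    rw [e]
    exact Submodule.add_mem _ h1 h3
  surj := by
    intro n a' ha'
    obtain ⟨f', hf', h1⟩ := (wD (A := A') hr').surj n a' ha'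
    obtain ⟨f, hf, h2⟩ := hsurj n f' hf'
    refine ⟨WD (id : N → N) r A univ n f, (WD_Z_iff hr).2 hf, ?_⟩
    have h3 := WD_exact (id : N' → N') r' A' univ h2
    have e : a' - φ.f (WD (id : N → N) r A univ n f) =
        (a' - WD (id : N' → N') r' A' univ n f') +
          WD (id : N' → N') r' A' univ n (fun l => f' l - f (l.map ψ)) := by
      have e1 : (fun l : List Y' => f' l - f (l.map ψ)) = f' - fun l => f (l.map ψ) := rfl
      rw [hφ, e1, map_sub]
      abel
    rw [e]
    exact Submodule.add_mem _ h1 h3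

/-! ### Constant paths -/

section paths

variable {M : Type} [MetricSpace M] {t : ℝ}

/-- the square of the constant paths over the diagonal -/
theorem sqD_cst (t : ℝ) : SqD (id : M × M → M × M) (ends t) (PP M t) univ (id : M → M) id univ univ
    (fun x => (x, x)) cP (fun x => (x, x)) where
  gX := mapsTo_univ _ _
  fA x _ := cP_mem_PP x t
  gl x _ y _ := by rw [Prod.dist_eq, max_self]
  fl x _ y _ := by rw [dist_cP]
  hl x y := by rw [Prod.dist_eq, max_self]
  sg _ _ := rfl
  sf x _ := ends_cP t x

/-- **C2Q, for any morphism with the right values on list cochains** -/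
theorem qiso_cst' (ht : 0 ≤ t)
    (φ : NDga.Hom (hD (id : M × M → M × M) (ends t) (PP M t) univ)
      (hD (id : M → M) id univ univ))
    (hφ : ∀ (n : ℕ) (f : List (ℝ →ᵇ M) → ℝ), φ.f (WD (id : M × M → M × M) (ends t) (PP M t) univ n f)
      = WD (id : M → M) id univ univ n (fun l => f (l.map cP))) : Qiso φ :=
  qiso_of_lists (dist_ends t) (fun _ _ => le_rfl) φ hφ (fun n f hf h => exL_PP ht hf h)
    fun n f' hf' => ⟨fun l => f' (l.map fun w => w 0), (cocL_PP t hf').1,
      ⟨fun _ => 0, fun _ _ => rfl, 1, one_pos, fun l _ _ => by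
        rw [PS.dl_zero_fun]
        show f' l - f' ((l.map cP).map fun w : ℝ →ᵇ M => w 0) = 0
        rw [(cocL_PP t hf').2, sub_self]⟩⟩

/-- **C2Q** -/
theorem qiso_cst (ht : 0 ≤ t) (S : SqD (id : M × M → M × M) (ends t) (PP M t) univ (id : M → M) id
    univ univ (fun x => (x, x)) cP (fun x => (x, x))) : Qiso S.pull :=
  qiso_cst' ht S.pull fun n f => pullD_WD (sq_mpP _ _) (fun ε _ => S.map ε) (fun _ => rfl) n f

end paths

end

end Vale.Agent.P216.V845
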