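import Vale.Agent.P216.H929V.HW
import Vale.Agent.P216.V893.PM

/-!
# P216-V: the hybrid dga of the based loops is not zero
-/

set_option linter.unusedSectionVars false
set_option linter.unusedVariables false

open Set Filter Topology BoundedContinuousFunction

namespace Vale.Agent.P216.V845

open Vale.Agent.P231.Fm V1 V609 H285V H929V V893 PS

noncomputable section

section gen

variable {N Y : Type} [PseudoMetricSpace N] [PseudoMetricSpace Y] {r : Y → N} {A : Set Y}
  {X : Set N}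

/-- the unit at one scale -/
theorem one_ne_HT (hr : ∀ x x', dist (r x) (r x') ≤ dist x x') (hA : ∀ x ∈ A, r x ∈ X)
    (hne : A.Nonempty) {ε : ℝ} (hε : 0 < ε) : (1 : HT (id : N → N) r A X ε) ≠ 0 := by
  intro h
  obtain ⟨y, hy⟩ := hne
  have h1 : (cst (ind 1) : Form (DT (id : N → N) r A X ε)) = 0 := by
    have h2 := congrArg HT.val h
    rw [HT.val_one, HT.val_zero] at h2
    exact h2
  have h3 := V1.eq_zero_of_cst (con_self hA hr) h1 (l := [y]) ⟨fun x hx => by
    rw [List.mem_singleton.1 hx]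
    exact hy, fun x hx x' hx' => by
    rw [List.mem_singleton.1 hx, List.mem_singleton.1 hx', dist_self]
    exact hε⟩ (List.cons_ne_nil _ _)
  simp [ind] at h3

/-- the unit of the germs -/
theorem one_ne_HD (hr : ∀ x x', dist (r x) (r x') ≤ dist x x') (hA : ∀ x ∈ A, r x ∈ X)
    (hne : A.Nonempty) : (1 : HD (id : N → N) r A X) ≠ 0 := by
  intro h
  have h1 : germD (id : N → N) r A X one_pos 1 = 0 := by
    rw [map_one]
    exact h
  obtain ⟨δ, h2, hδ, h3⟩ := germD_eq_zero.1 h1
  rw [map_one] at h3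
  exact one_ne_HT hr hA hne hδ h3

end gen

variable {M : Type} [MetricSpace M]

theorem cP_mem_P (b : M) (t : ℝ) : (cP b : ℝ →ᵇ M) ∈ P b b t :=
  ⟨fun u v => by
    show dist b b ≤ |u - v|
    rw [dist_self]
    exact abs_nonneg _, fun _ _ => rfl, fun _ _ => rfl⟩

/-- **one_ne_om**: all real `t` -/
theorem one_ne_om (b : M) (t : ℝ) :
    (1 : HD (id : M → M) (fun w : ℝ →ᵇ M => w 0) (P b b t) ({b} : Set M)) ≠ 0 :=
  one_ne_HD (fun _ _ => BoundedContinuousFunction.dist_coe_le_dist 0)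
    (fun w hw => hw.2.1 0 le_rfl) ⟨cP b, cP_mem_P b t⟩

/-- the same at one scale -/
theorem one_ne_om_HT (b : M) (t : ℝ) {ε : ℝ} (hε : 0 < ε) :
    (1 : HT (id : M → M) (fun w : ℝ →ᵇ M => w 0) (P b b t) ({b} : Set M) ε) ≠ 0 :=
  one_ne_HT (fun _ _ => BoundedContinuousFunction.dist_coe_le_dist 0)
    (fun w hw => hw.2.1 0 le_rfl) ⟨cP b, cP_mem_P b t⟩ hε

end

end Vale.Agent.P216.V845
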